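import Mathlib

/-!
P159 (T1), part (A5)(ii): slope of the self energy without reflection positivity.
A nonnegative kernel on the torus `ZMod N × ZMod N`, invariant under the square symmetries.
-/

namespace Vale.Agent.P159.H112

open Finset Real

noncomputable section

variable {N : ℕ} [NeZero N]

/-- centred representative of a residue, as a real number -/
def rep (x : ZMod N) : ℝ := ((x.valMinAbs : ℤ) : ℝ)

/-- squared Euclidean length of the centred representative -/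
def nrm2 (z : ZMod N × ZMod N) : ℝ := rep z.1 ^ 2 + rep z.2 ^ 2

/-- cosine transform at the real momentum `(k1, k2)` -/
def hat (G : ZMod N × ZMod N → ℝ) (k1 k2 : ℝ) : ℝ :=
  ∑ z, G z * (cos (k1 * rep z.1) * cos (k2 * rep z.2))

def s2 (G : ZMod N × ZMod N → ℝ) : ℝ := (1 / 4) * ∑ z, nrm2 z * G z

def s4 (G : ZMod N × ZMod N → ℝ) : ℝ := ∑ z, nrm2 z ^ 2 * G z

lemma hat_zero (G : ZMod N × ZMod N → ℝ) : hat G 0 0 = ∑ z, G z := by
  simp [hat]

lemma sum_swap (F : ZMod N × ZMod N → ℝ) :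
    ∑ z : ZMod N × ZMod N, F z.swap = ∑ z, F z :=
  Fintype.sum_equiv (Equiv.prodComm _ _) _ _ (fun _ => rfl)

lemma sum_neg_fst (F : ZMod N × ZMod N → ℝ) :
    ∑ z : ZMod N × ZMod N, F (-z.1, z.2) = ∑ z, F z :=
  Fintype.sum_equiv (Equiv.prodCongr (Equiv.neg _) (Equiv.refl _)) _ _ (fun _ => rfl)

/-- both coordinate second moments are twice `s2` -/
lemma mom1 (G : ZMod N × ZMod N → ℝ) (hsw : ∀ x y, G (x, y) = G (y, x)) :
    ∑ z : ZMod N × ZMod N, rep z.1 ^ 2 * G z = 2 * s2 G := by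
  have h1 : ∑ z : ZMod N × ZMod N, rep z.2 ^ 2 * G z
      = ∑ z : ZMod N × ZMod N, rep z.1 ^ 2 * G z := by
    rw [← sum_swap]
    refine Finset.sum_congr rfl (fun z _ => ?_)
    have : G z.swap = G z := by
      obtain ⟨x, y⟩ := z
      exact hsw y x
    simp [this]
  have h2 : ∑ z : ZMod N × ZMod N, nrm2 z * G z
      = ∑ z : ZMod N × ZMod N, rep z.1 ^ 2 * G z
        + ∑ z : ZMod N × ZMod N, rep z.2 ^ 2 * G z := by
    rw [← Finset.sum_add_distrib]
    refine Finset.sum_congr rfl (fun z _ => ?_)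
    unfold nrm2; ring
  unfold s2
  rw [h2, h1]; ring

lemma mom2 (G : ZMod N × ZMod N → ℝ) (hsw : ∀ x y, G (x, y) = G (y, x)) :
    ∑ z : ZMod N × ZMod N, rep z.2 ^ 2 * G z = 2 * s2 G := by
  rw [← mom1 G hsw, ← sum_swap]
  refine Finset.sum_congr rfl (fun z _ => ?_)
  have : G z.swap = G z := by
    obtain ⟨x, y⟩ := z
    exact hsw y x
  simp [this]

lemma s2_nonneg (G : ZMod N × ZMod N → ℝ) (hG : ∀ z, 0 ≤ G z) : 0 ≤ s2 G := by
  unfold s2
  refine mul_nonneg (by norm_num) (Finset.sum_nonneg (fun z _ => mul_nonneg ?_ (hG z)))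
  unfold nrm2; positivity

lemma s4_nonneg (G : ZMod N × ZMod N → ℝ) (hG : ∀ z, 0 ≤ G z) : 0 ≤ s4 G :=
  Finset.sum_nonneg (fun z _ => mul_nonneg (by positivity) (hG z))

/-- `1 - cos a cos b ≤ (a^2 + b^2)/2` -/
lemma one_sub_cos_mul (a b : ℝ) : 1 - cos a * cos b ≤ (a ^ 2 + b ^ 2) / 2 := by
  have ha := Real.one_sub_sq_div_two_le_cos (x := a)
  have hb := Real.one_sub_sq_div_two_le_cos (x := b)
  have h1 := Real.cos_le_one a
  have h2 := Real.cos_le_one b
  have h3 := Real.neg_one_le_cos a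
  nlinarith [mul_nonneg (sub_nonneg.2 h2) (sub_nonneg.2 h1)]

/-- `cos x ≤ 1 - x^2/2 + x^4/24` for every real `x` -/
lemma cos_le_quartic (x : ℝ) : cos x ≤ 1 - x ^ 2 / 2 + x ^ 4 / 24 := by
  -- sin x ≥ x - x^3/6 for x ≥ 0, integrate
  have hsin : ∀ x : ℝ, 0 ≤ x → x - x ^ 3 / 6 ≤ sin x := by
    intro x hx
    rcases hx.eq_or_lt with h | h
    · subst h; simp
    · exact le_of_lt (Real.sin_gt_sub_cube h)
  have hpos : ∀ x : ℝ, 0 ≤ x → cos x ≤ 1 - x ^ 2 / 2 + x ^ 4 / 24 := by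
    intro x hx
    have key : MonotoneOn (fun x : ℝ => (1 - x ^ 2 / 2 + x ^ 4 / 24) - cos x) (Set.Ici 0) := by
      refine monotoneOn_of_deriv_nonneg (convex_Ici 0) (by fun_prop) (by fun_prop) ?_
      intro y hy
      have hd : HasDerivAt (fun x : ℝ => (1 - x ^ 2 / 2 + x ^ 4 / 24) - cos x)
          ((0 - 2 * y / 2 + 4 * y ^ 3 / 24) - (-sin y)) y := by
        have h1 := (Real.hasDerivAt_cos y)
        have h2 := (((hasDerivAt_const y (1:ℝ)).sub ((hasDerivAt_pow 2 y).div_const 2)).add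
          ((hasDerivAt_pow 4 y).div_const 24))
        have h3 := h2.sub h1
        refine h3.congr_deriv ?_
        norm_num
      rw [hd.deriv]
      have hy0 : 0 ≤ y := by
        rw [interior_Ici] at hy
        exact le_of_lt hy
      have := hsin y hy0
      linarith
    have := key (Set.mem_Ici.2 le_rfl) (Set.mem_Ici.2 hx) hx
    simp at this
    linarith
  rcases le_total 0 x with h | h
  · exact hpos x h
  · have := hpos (-x) (by linarith)
    rw [Real.cos_neg] at this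
    have e1 : (-x) ^ 2 = x ^ 2 := by ring
    have e2 : (-x) ^ 4 = x ^ 4 := by ring
    rw [e1, e2] at this
    exact this

/-- (a), lower half -/
lemma hat_le (G : ZMod N × ZMod N → ℝ) (hG : ∀ z, 0 ≤ G z) (k1 k2 : ℝ) :
    hat G k1 k2 ≤ hat G 0 0 := by
  rw [hat_zero]
  unfold hat
  refine Finset.sum_le_sum (fun z _ => ?_)
  have h : cos (k1 * rep z.1) * cos (k2 * rep z.2) ≤ 1 := by
    have h1 := Real.abs_cos_le_one (k1 * rep z.1)
    have h2 := Real.abs_cos_le_one (k2 * rep z.2)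
    calc cos (k1 * rep z.1) * cos (k2 * rep z.2)
        ≤ |cos (k1 * rep z.1) * cos (k2 * rep z.2)| := le_abs_self _
      _ = |cos (k1 * rep z.1)| * |cos (k2 * rep z.2)| := abs_mul _ _
      _ ≤ 1 * 1 := mul_le_mul h1 h2 (abs_nonneg _) zero_le_one
      _ = 1 := one_mul 1
  calc G z * (cos (k1 * rep z.1) * cos (k2 * rep z.2)) ≤ G z * 1 :=
        mul_le_mul_of_nonneg_left h (hG z)
    _ = G z := mul_one _

/-- (a): quadratic upper bound in every direction -/
lemma hat_sub_le (G : ZMod N × ZMod N → ℝ) (hG : ∀ z, 0 ≤ G z)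
    (hsw : ∀ x y, G (x, y) = G (y, x)) (k1 k2 : ℝ) :
    hat G 0 0 - hat G k1 k2 ≤ s2 G * (k1 ^ 2 + k2 ^ 2) := by
  have e1 : s2 G * (k1 ^ 2 + k2 ^ 2)
      = ∑ z : ZMod N × ZMod N, G z * (((k1 * rep z.1) ^ 2 + (k2 * rep z.2) ^ 2) / 2) := by
    have h1 := mom1 G hsw
    have h2 := mom2 G hsw
    have : ∑ z : ZMod N × ZMod N, G z * (((k1 * rep z.1) ^ 2 + (k2 * rep z.2) ^ 2) / 2)
        = k1 ^ 2 / 2 * ∑ z : ZMod N × ZMod N, rep z.1 ^ 2 * G z
          + k2 ^ 2 / 2 * ∑ z : ZMod N × ZMod N, rep z.2 ^ 2 * G z := by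
      rw [Finset.mul_sum, Finset.mul_sum, ← Finset.sum_add_distrib]
      refine Finset.sum_congr rfl (fun z _ => ?_)
      ring
    rw [this, h1, h2]; ring
  rw [e1, hat_zero]
  unfold hat
  rw [← Finset.sum_sub_distrib]
  refine Finset.sum_le_sum (fun z _ => ?_)
  have h := one_sub_cos_mul (k1 * rep z.1) (k2 * rep z.2)
  have := mul_le_mul_of_nonneg_left h (hG z)
  linarith

/-- (b): the second moment is controlled by ONE axis momentum and the fourth moment -/
lemma s2_mul_le (G : ZMod N × ZMod N → ℝ) (hG : ∀ z, 0 ≤ G z)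
    (hsw : ∀ x y, G (x, y) = G (y, x)) (q : ℝ) :
    s2 G * q ^ 2 ≤ hat G 0 0 - hat G q 0 + s4 G * q ^ 4 / 24 := by
  have h1 := mom1 G hsw
  have e1 : s2 G * q ^ 2 = ∑ z : ZMod N × ZMod N, G z * ((q * rep z.1) ^ 2 / 2) := by
    have : ∑ z : ZMod N × ZMod N, G z * ((q * rep z.1) ^ 2 / 2)
        = q ^ 2 / 2 * ∑ z : ZMod N × ZMod N, rep z.1 ^ 2 * G z := by
      rw [Finset.mul_sum]
      refine Finset.sum_congr rfl (fun z _ => ?_)
      ring
    rw [this, h1]; ring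
  have e2 : ∑ z : ZMod N × ZMod N, G z * ((q * rep z.1) ^ 4 / 24) ≤ s4 G * q ^ 4 / 24 := by
    have e3 : s4 G * q ^ 4 / 24
        = ∑ z : ZMod N × ZMod N, nrm2 z ^ 2 * G z * (q ^ 4 / 24) := by
      unfold s4
      rw [← Finset.sum_mul]; ring
    rw [e3]
    refine Finset.sum_le_sum (fun z _ => ?_)
    have hz := hG z
    have h4 : rep z.1 ^ 4 ≤ nrm2 z ^ 2 := by
      unfold nrm2
      nlinarith [sq_nonneg (rep z.1), sq_nonneg (rep z.2),
        mul_nonneg (sq_nonneg (rep z.1)) (sq_nonneg (rep z.2))]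
    have h5 : (0:ℝ) ≤ q ^ 4 / 24 := by positivity
    have h6 := mul_le_mul_of_nonneg_right (mul_le_mul_of_nonneg_right h4 hz) h5
    calc G z * ((q * rep z.1) ^ 4 / 24) = rep z.1 ^ 4 * G z * (q ^ 4 / 24) := by ring
      _ ≤ _ := h6
  have e4 : ∑ z : ZMod N × ZMod N, G z * ((q * rep z.1) ^ 2 / 2)
      ≤ hat G 0 0 - hat G q 0 + ∑ z : ZMod N × ZMod N, G z * ((q * rep z.1) ^ 4 / 24) := by
    rw [hat_zero]
    unfold hat
    rw [← Finset.sum_sub_distrib, ← Finset.sum_add_distrib]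
    refine Finset.sum_le_sum (fun z _ => ?_)
    have hc := cos_le_quartic (q * rep z.1)
    have := mul_le_mul_of_nonneg_left hc (hG z)
    simp only [zero_mul, Real.cos_zero, mul_one]
    linarith
  linarith

/-- the constant of one step -/
def Aconst (e κ a t C : ℝ) : ℝ := a + κ / (t * e) + C * t / 24

/-- (c), first half: bound of the second moment by the data of the PREVIOUS scale. -/
theorem s2_step (G : ZMod N × ZMod N → ℝ) (hG : ∀ z, 0 ≤ G z)
    (hsw : ∀ x y, G (x, y) = G (y, x)) {e κ a t C q : ℝ} (he : 0 < e) (hκ : 0 ≤ κ)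
    (ha : 0 ≤ a) (ht : 0 < t) (hq : q ^ 2 = t * e) (h0 : hat G 0 0 ≤ 1 / e)
    (hGq : 1 / (e + κ + a * q ^ 2) ≤ hat G q 0) (h4 : s4 G ≤ C / e ^ 3) :
    s2 G ≤ Aconst e κ a t C / e ^ 2 := by
  have hb := s2_mul_le G hG hsw q
  have hx0 : 0 ≤ κ + a * q ^ 2 := by positivity
  have hfrac : 1 / e - 1 / (e + κ + a * q ^ 2) ≤ (κ + a * q ^ 2) / e ^ 2 := by
    have h1 : 0 < e + κ + a * q ^ 2 := by positivity
    have h2 : 1 / e - 1 / (e + κ + a * q ^ 2)
        = (κ + a * q ^ 2) / (e * (e + κ + a * q ^ 2)) := by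
      field_simp
      ring
    rw [h2]
    apply div_le_div_of_nonneg_left hx0 (by positivity)
    nlinarith
  have h5 : s4 G * q ^ 4 / 24 ≤ C / e ^ 3 * q ^ 4 / 24 := by
    have : (0:ℝ) ≤ q ^ 4 := by positivity
    have := mul_le_mul_of_nonneg_right h4 this
    linarith
  have h6 : s2 G * (t * e) ≤ (κ + a * q ^ 2) / e ^ 2 + C / e ^ 3 * q ^ 4 / 24 := by
    rw [← hq]
    linarith
  have h7 : q ^ 4 = (t * e) ^ 2 := by
    have : q ^ 4 = (q ^ 2) ^ 2 := by ring
    rw [this, hq]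
  rw [hq, h7] at h6
  have hte : 0 < t * e := by positivity
  have h8 : s2 G ≤ ((κ + a * (t * e)) / e ^ 2 + C / e ^ 3 * (t * e) ^ 2 / 24) / (t * e) := by
    rw [le_div_iff₀ hte]
    exact h6
  refine h8.trans (le_of_eq ?_)
  unfold Aconst
  field_simp
  ring

/-- (c), second half: the self energy at small momenta. -/
theorem slope_small (G : ZMod N × ZMod N → ℝ) (hG : ∀ z, 0 ≤ G z)
    (hsw : ∀ x y, G (x, y) = G (y, x)) {e κ a t C q y : ℝ} (he : 0 < e) (hκ : 0 ≤ κ)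
    (ha : 0 ≤ a) (ht : 0 < t) (hC : 0 ≤ C) (hq : q ^ 2 = t * e) (h0 : hat G 0 0 ≤ 1 / e)
    (hGq : 1 / (e + κ + a * q ^ 2) ≤ hat G q 0) (h4 : s4 G ≤ C / e ^ 3)
    (hy : (1 - y) / e ≤ hat G 0 0) (hyA : y + t * Aconst e κ a t C < 1)
    {k1 k2 : ℝ} (hk : k1 ^ 2 + k2 ^ 2 ≤ t * e) :
    1 / hat G k1 k2 - e ≤ (1 / hat G 0 0 - e)
      + Aconst e κ a t C / ((1 - y) * (1 - y - t * Aconst e κ a t C)) * (k1 ^ 2 + k2 ^ 2) := by
  set A := Aconst e κ a t C with hA
  have hA0 : 0 ≤ A := by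
    rw [hA]; unfold Aconst; positivity
  have hs2 := s2_step G hG hsw he hκ ha ht hq h0 hGq h4
  rw [← hA] at hs2
  have hsub := hat_sub_le G hG hsw k1 k2
  set K := k1 ^ 2 + k2 ^ 2 with hK
  have hK0 : 0 ≤ K := by positivity
  have htA : 0 ≤ t * A := by positivity
  have hx1 : s2 G * K ≤ A / e ^ 2 * K := mul_le_mul_of_nonneg_right hs2 hK0
  have hx2 : A / e ^ 2 * K ≤ t * A / e := by
    have : A / e ^ 2 * K ≤ A / e ^ 2 * (t * e) := by
      apply mul_le_mul_of_nonneg_left hk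
      positivity
    refine this.trans (le_of_eq ?_)
    field_simp
  have h1y : 0 < 1 - y := by linarith
  have h1yA : 0 < 1 - y - t * A := by linarith
  have hG0pos : 0 < hat G 0 0 := lt_of_lt_of_le (by positivity) hy
  have hlow : (1 - y - t * A) / e ≤ hat G k1 k2 := by
    have : (1 - y - t * A) / e = (1 - y) / e - t * A / e := by ring
    rw [this]; linarith
  have hGkpos : 0 < hat G k1 k2 := lt_of_lt_of_le (by positivity) hlow
  have key : 1 / hat G k1 k2 - 1 / hat G 0 0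
      ≤ A / ((1 - y) * (1 - y - t * A)) * K := by
    have e1 : 1 / hat G k1 k2 - 1 / hat G 0 0
        = (hat G 0 0 - hat G k1 k2) / (hat G 0 0 * hat G k1 k2) := by
      field_simp
    rw [e1]
    have e2 : (hat G 0 0 - hat G k1 k2) / (hat G 0 0 * hat G k1 k2)
        ≤ (A / e ^ 2 * K) / (hat G 0 0 * hat G k1 k2) := by
      apply div_le_div_of_nonneg_right _ (by positivity)
      linarith
    refine e2.trans ?_
    have e3 : (A / e ^ 2 * K) / (hat G 0 0 * hat G k1 k2)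
        ≤ (A / e ^ 2 * K) / ((1 - y) / e * ((1 - y - t * A) / e)) := by
      apply div_le_div_of_nonneg_left (by positivity) (by positivity)
      exact mul_le_mul hy hlow (by positivity) (by positivity)
    refine e3.trans (le_of_eq ?_)
    field_simp
  linarith

/-- (A5)(ii): the self energy at ALL momenta of a set `K` on which the previous scale gives
`Π ≤ κ + a|k|^2`. -/
theorem slope_step (G : ZMod N × ZMod N → ℝ) (hG : ∀ z, 0 ≤ G z)
    (hsw : ∀ x y, G (x, y) = G (y, x)) {e κ a t C q y : ℝ} (he : 0 < e) (hκ : 0 ≤ κ)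
    (ha : 0 ≤ a) (ht : 0 < t) (hC : 0 ≤ C) (hq : q ^ 2 = t * e) (h0 : hat G 0 0 ≤ 1 / e)
    (h4 : s4 G ≤ C / e ^ 3)
    (hy : (1 - y) / e ≤ hat G 0 0) (hyA : y + t * Aconst e κ a t C < 1) (hy0 : 0 ≤ y)
    (K : Set (ℝ × ℝ)) (hqK : (q, 0) ∈ K)
    (hprev : ∀ k ∈ K, 0 < hat G k.1 k.2 ∧ 1 / hat G k.1 k.2 - e ≤ κ + a * (k.1 ^ 2 + k.2 ^ 2))
    {k : ℝ × ℝ} (hk : k ∈ K) :
    1 / hat G k.1 k.2 - e ≤ (1 / hat G 0 0 - e)
      + Aconst e κ a t C / ((1 - y) * (1 - y - t * Aconst e κ a t C))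
          * (k.1 ^ 2 + k.2 ^ 2) := by
  have hA0 : 0 ≤ Aconst e κ a t C := by unfold Aconst; positivity
  have htA : 0 ≤ t * Aconst e κ a t C := by positivity
  have h1y : 0 < 1 - y := by linarith
  have h1yA : 0 < 1 - y - t * Aconst e κ a t C := by linarith
  have hGq : 1 / (e + κ + a * q ^ 2) ≤ hat G q 0 := by
    obtain ⟨hp, hb⟩ := hprev _ hqK
    simp only at hp hb
    have h1 : 1 / hat G q 0 ≤ e + κ + a * q ^ 2 := by
      have : (0:ℝ) ^ 2 = 0 := by norm_num
      rw [this, add_zero] at hb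
      linarith
    have h2 : 0 < e + κ + a * q ^ 2 := by positivity
    rw [div_le_iff₀ h2]
    rw [div_le_iff₀ hp] at h1
    linarith
  rcases le_total (k.1 ^ 2 + k.2 ^ 2) (t * e) with h | h
  · exact slope_small G hG hsw he hκ ha ht hC hq h0 hGq h4 hy hyA h
  · have hb := (hprev _ hk).2
    have hG0pos : 0 < hat G 0 0 := lt_of_lt_of_le (by positivity) hy
    have h1 : 0 ≤ 1 / hat G 0 0 - e := by
      rw [sub_nonneg, le_div_iff₀ hG0pos]
      rw [le_div_iff₀ he] at h0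
      linarith
    have h2 : κ + a * (k.1 ^ 2 + k.2 ^ 2) ≤ Aconst e κ a t C * (k.1 ^ 2 + k.2 ^ 2) := by
      have h3 : κ ≤ κ / (t * e) * (k.1 ^ 2 + k.2 ^ 2) := by
        have : κ = κ / (t * e) * (t * e) := by field_simp
        calc κ = κ / (t * e) * (t * e) := this
          _ ≤ _ := mul_le_mul_of_nonneg_left h (by positivity)
      unfold Aconst
      have h4 : 0 ≤ C * t / 24 * (k.1 ^ 2 + k.2 ^ 2) := by positivity
      nlinarith
    have h5 : Aconst e κ a t C ≤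
        Aconst e κ a t C / ((1 - y) * (1 - y - t * Aconst e κ a t C)) := by
      rw [le_div_iff₀ (by positivity)]
      have : (1 - y) * (1 - y - t * Aconst e κ a t C) ≤ 1 := by nlinarith
      nlinarith
    have h6 := mul_le_mul_of_nonneg_right h5 (show (0:ℝ) ≤ k.1 ^ 2 + k.2 ^ 2 by positivity)
    linarith

/-- the cosine transform at the momenta of the dual torus is the usual one -/
theorem hat_eq_cos_add (G : ZMod N × ZMod N → ℝ) (hrf : ∀ x y, G (-x, y) = G (x, y))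
    (j1 : ℤ) (k2 : ℝ) :
    hat G (2 * π * j1 / N) k2
      = ∑ z : ZMod N × ZMod N, G z * cos (2 * π * j1 / N * rep z.1 + k2 * rep z.2) := by
  have hN : (N : ℝ) ≠ 0 := by exact_mod_cast NeZero.ne N
  have hsin : ∀ x : ZMod N, sin (2 * π * j1 / N * rep (-x)) = - sin (2 * π * j1 / N * rep x) := by
    intro x
    have : ∃ m : ℤ, (-x).valMinAbs = - x.valMinAbs + m * N := by
      have h : (((-x).valMinAbs + x.valMinAbs : ℤ) : ZMod N) = 0 := by
        push_cast
        simp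
      rw [ZMod.intCast_zmod_eq_zero_iff_dvd] at h
      obtain ⟨m, hm⟩ := h
      exact ⟨m, by linarith [hm, mul_comm (N:ℤ) m]⟩
    obtain ⟨m, hm⟩ := this
    unfold rep
    rw [hm]
    push_cast
    have e : 2 * π * j1 / N * (-(x.valMinAbs : ℝ) + m * N)
        = -(2 * π * j1 / N * x.valMinAbs) + ((j1 * m : ℤ) : ℝ) * (2 * π) := by
      push_cast
      field_simp
    rw [e, Real.sin_add_int_mul_two_pi, Real.sin_neg]
  have hzero : ∑ z : ZMod N × ZMod N,
      G z * (sin (2 * π * j1 / N * rep z.1) * sin (k2 * rep z.2)) = 0 := by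
    have h := sum_neg_fst (fun z : ZMod N × ZMod N =>
      G z * (sin (2 * π * j1 / N * rep z.1) * sin (k2 * rep z.2)))
    have h2 : ∑ z : ZMod N × ZMod N,
        (fun z : ZMod N × ZMod N =>
          G z * (sin (2 * π * j1 / N * rep z.1) * sin (k2 * rep z.2))) (-z.1, z.2)
        = - ∑ z : ZMod N × ZMod N,
          G z * (sin (2 * π * j1 / N * rep z.1) * sin (k2 * rep z.2)) := by
      rw [← Finset.sum_neg_distrib]
      refine Finset.sum_congr rfl (fun z _ => ?_)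
      obtain ⟨x, y⟩ := z
      simp only [hsin, hrf]
      ring
    linarith
  have : ∑ z : ZMod N × ZMod N, G z * cos (2 * π * j1 / N * rep z.1 + k2 * rep z.2)
      = hat G (2 * π * j1 / N) k2 - ∑ z : ZMod N × ZMod N,
        G z * (sin (2 * π * j1 / N * rep z.1) * sin (k2 * rep z.2)) := by
    unfold hat
    rw [← Finset.sum_sub_distrib]
    refine Finset.sum_congr rfl (fun z _ => ?_)
    rw [Real.cos_add]; ring
  rw [this, hzero, sub_zero]

end

end Vale.Agent.P159.H112
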